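import Crest.Agent.X212.Lev9.Band
import Crest.Agent.X212.Orx52.Orb
import Crest.Agent.X212.Hel40.Defs

/-!
# Row 212, HEL / LEV (helper9): `LevStmt`
-/

set_option autoImplicit false
set_option linter.unusedSectionVars false
noncomputable section
open Set Filter Topology Function Complex
open scoped ContDiff Manifold

namespace Crest.Agent.X212.Lev9

open Crest.Agent.X212.Hel40 Crest.Agent.X212.Orx52 Crest.Agent.X212.Glue52
open Crest.Agent.X212.Sep15 (CM)

theorem stp_lo {ε r : ℝ} (hε : 0 < ε) (h : r ≤ -ε) : stp ε r = 0 :=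
  Real.smoothTransition.zero_of_nonpos (by
    have := (div_le_iff₀ hε).2 (show r ≤ -1 * ε by linarith)
    linarith)

theorem stp_hi {ε r : ℝ} (hε : 0 < ε) (h : ε ≤ r) : stp ε r = 1 :=
  Real.smoothTransition.one_of_one_le (by
    have := (le_div_iff₀ hε).2 (show 1 * ε ≤ r by linarith)
    linarith)

theorem exp_stp {ε r : ℝ} (hε : 0 < ε) (h : ε ≤ |r|) : Circle.exp (2 * Real.pi * stp ε r) = 1 := by
  rcases le_abs'.1 h with a | a
  · simp [stp_lo hε a]
  · simp [stp_hi hε a]

theorem cd_stp (ε : ℝ) : ContDiff ℝ ∞ (stp ε) :=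
  Real.smoothTransition.contDiff.comp (((contDiff_id.div_const ε).add contDiff_const).div_const 2)

theorem del_A {R : Type*} {A : ℂ → R} (h : ∀ z w, A z = A w ↔ ∃ n : ℤ, w = z + n) (ε : ℝ) (z : ℂ) :
    del A ε (A z) = Circle.exp (2 * Real.pi * stp ε z.im) := by
  have h1 : ∃ w, A w = A z := ⟨z, rfl⟩
  obtain ⟨n, hn⟩ := (h _ _).1 h1.choose_spec
  rw [del, dif_pos h1, show z.im = h1.choose.im by simpa using congrArg im hn]

theorem del_off {R : Type*} {A : ℂ → R} (ε : ℝ) {x : R} (h : x ∉ range A) : del A ε x = 1 :=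
  dif_neg h

theorem cd_arg {z : ℂ} (h : z ∈ slitPlane) : ContDiffAt ℝ ∞ arg z := by
  have := imCLM.contDiff.contDiffAt.comp z ((contDiffAt_log (n := ∞) h).restrict_scalars ℝ)
  exact this.congr_of_eventuallyEq (Eventually.of_forall fun w => (log_im w).symm)

/-- the angle minus the step is a smooth function on the circle -/
theorem exists_log {c δ : ℝ} (hδ : 0 < δ) (h1 : -(1 / 2) < c - δ) (h2 : c + δ < 1 / 2) :
    ∃ l : Circle → ℝ, ContMDiff (𝓡 1) 𝓘(ℝ, ℝ) ∞ l ∧ ∀ u : Circle, u =
      (if (u : ℂ).re < 0 then Circle.exp (2 * Real.pi * stp δ (-(u : ℂ).im - c)) else 1) *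
        Circle.exp (l u) := by
  let f : ℂ → ℝ := fun u => Real.pi + arg (-u) - 2 * Real.pi * stp δ (-u.im - c)
  refine ⟨fun u => if (u : ℂ).re < 0 then f u else arg u, fun u => ?_, fun u => ?_⟩
  · have c1 : Continuous fun u : Circle => (u : ℂ).re := by fun_prop
    have c2 : Continuous fun u : Circle => (u : ℂ).im := by fun_prop
    by_cases hu : (u : ℂ).re < 0
    · have : ContDiffAt ℝ ∞ f u := (contDiffAt_const.add ((cd_arg (Or.inl (by simpa using hu))).comp _
        contDiff_neg.contDiffAt)).sub (contDiffAt_const.mul ((cd_stp δ).comp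
          (imCLM.contDiff.neg.sub contDiff_const)).contDiffAt)
      refine (this.contMDiffAt.comp u (contMDiff_circle_coe u)).congr_of_eventuallyEq ?_
      filter_upwards [(c1.tendsto u).eventually (gt_mem_nhds hu)] with y hy
      exact if_pos hy
    · have a : 0 < (u : ℂ).re ∨ 1 / 2 < |(u : ℂ).im| := (not_lt.1 hu).lt_or_eq.imp_right fun e => by
        have := Circle.normSq_coe u
        rw [normSq_apply, ← e, ← abs_mul_abs_self (u : ℂ).im] at this
        nlinarith [abs_nonneg (u : ℂ).im]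
      refine ((cd_arg (a.imp_right fun b e => by norm_num [e] at b)).contMDiffAt.comp u
        (contMDiff_circle_coe u)).congr_of_eventuallyEq ?_
      filter_upwards [((isOpen_lt continuous_const c1).union
        (isOpen_lt continuous_const c2.abs)).mem_nhds a] with y hy
      show _ = arg y
      split_ifs with b
      · rcases lt_abs.1 (show 1 / 2 < |(y : ℂ).im| from hy.resolve_left b.not_gt) with d | d
        · simp [f, arg_neg_eq_arg_sub_pi_of_im_pos (show 0 < (y : ℂ).im by linarith),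
            stp_lo hδ (show -(y : ℂ).im - c ≤ -δ by linarith)]
        · simp only [f, arg_neg_eq_arg_add_pi_of_im_neg (show (y : ℂ).im < 0 by linarith),
            stp_hi hδ (show δ ≤ -(y : ℂ).im - c by linarith)]
          ring
      · rfl
  · beta_reduce
    split_ifs with b
    · rw [← Circle.exp_add, add_sub_cancel, Circle.exp_add]
      have := Circle.exp_arg (Circle.exp Real.pi * u)
      rw [show ((Circle.exp Real.pi * u : Circle) : ℂ) = -u by simp] at this
      rw [this, ← mul_assoc, ← Circle.exp_add, ← two_mul, Circle.exp_two_pi, one_mul]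
    · rw [one_mul, Circle.exp_arg]

/-- **LEV** -/
theorem lev : LevStmt := fun R oR W w ho _ hw h1 => by
  have s0 : ContMDiff (𝓡 2) 𝓘(ℝ, ℂ) ∞ fun x => (w x : ℂ) := contMDiff_circle_coe.comp hw
  have s1 : ContMDiff Prf6.IC Prf6.IR ∞ fun x : Cp R => -(w (ofCp x) : ℂ).im :=
    (imCLM.contDiff.neg.contMDiff.comp s0).comp ld_ofCp.contMDiff
  obtain ⟨c, δ, hδ, c1, c2, ρ, r1, r2, r3, ι, _, B, b1, b2, b3⟩ :=
    exists_band (orOf (ori_oCp ho)) s1 (a := -(1 / 2)) (b := 1 / 2) (by norm_num)
  let A : ι → ℂ → R := fun i => ofCp ∘ B i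
  have a1 : ∀ i, An' (A i) := fun i => ⟨fun z => ld_to.1 ((b1 i).1 z), (b1 i).2.1⟩
  have a2 : ∀ i z, -(w (A i z) : ℂ).im = c + δ * ρ z.im := fun i => (b1 i).2.2
  have a3 : ∀ i z z', (w (A i z) : ℂ).re < 0 → (w (A i z') : ℂ).re < 0 := fun i z z' h => by
    by_contra b
    obtain ⟨y, hy⟩ := intermediate_value_univ z z' (f := fun z => (w (A i z) : ℂ).re)
      (continuous_re.comp (s0.continuous.comp (a1 i).1.contMDiff.continuous)) ⟨h.le, not_lt.1 b⟩
    have e1 := Circle.normSq_coe (w (A i y))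
    have e2 := abs_lt.1 (r2 y.im)
    have e3 := a2 i y
    rw [normSq_apply, show (w (A i y) : ℂ).re = 0 from hy] at e1
    nlinarith [mul_lt_mul_of_pos_left e2.1 hδ, mul_lt_mul_of_pos_left e2.2 hδ]
  have a4 : ∀ r, stp δ (δ * ρ r) = stp 1 r := fun r => by
    rcases le_total r (-1) with a | a
    · have := r1 a
      rw [r3 (-1) (by simp)] at this
      rw [stp_lo one_pos a, stp_lo hδ (by nlinarith)]
    rcases le_total 1 r with b | b
    · have := r1 b
      rw [r3 1 (by simp)] at this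
      rw [stp_hi one_pos b, stp_hi hδ (by nlinarith)]
    · rw [r3 r (abs_le.2 ⟨a, b⟩), stp, stp, mul_div_cancel_left₀ _ hδ.ne', div_one]
  obtain ⟨m, ⟨e⟩⟩ := Finite.exists_equiv_fin {i // (w (A i 0) : ℂ).re < 0}
  obtain ⟨l, l1, l2⟩ := exists_log (c := c) hδ (by linarith) (by linarith)
  have a5 : ∀ i j, i ≠ j → Disjoint (range (A (e.symm i))) (range (A (e.symm j))) := fun i j h =>
    b2 _ _ fun b => h (e.symm.injective (Subtype.ext b))
  refine ⟨m, fun i => A (e.symm i), fun i => ⟨a1 _, ?_⟩, a5, l ∘ w, l1.comp hw, fun x => ?_⟩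
  · rintro _ ⟨z, rfl⟩
    by_contra b
    have := a3 _ 0 z (e.symm i).2
    norm_num [h1 _ b] at this
  · refine (l2 _).trans (congrArg (· * _) ?_)
    rw [Finset.prod_apply]
    by_cases hx : ∃ i, x ∈ range (A (e.symm i))
    · obtain ⟨i, z, rfl⟩ := hx
      rw [Finset.prod_eq_single i (fun j _ h => del_off 1 (disjoint_right.1 (a5 j i h) ⟨z, rfl⟩))
        (by simp), del_A (a1 _).2, if_pos (a3 _ 0 z (e.symm i).2), a2, add_sub_cancel_left, a4]
    · rw [Finset.prod_eq_one fun i _ => del_off 1 fun b => hx ⟨i, b⟩]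
      split_ifs with b
      · refine exp_stp hδ (not_lt.1 fun d => hx ?_)
        obtain ⟨i, z, hz⟩ := b3 (toCp x) d.le
        have hz' : A i z = x := hz
        exact ⟨e ⟨i, a3 i z 0 (by rwa [hz'])⟩, z, by rwa [e.symm_apply_apply]⟩
      · rfl

end Crest.Agent.X212.Lev9
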