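import Crest.Agent.X212.Lev9.Main
import Crest.Agent.X212.Bs44.Main
import Crest.Agent.X212.Hd34.Del

/-!
# Row 212, HEL / SINGLE (helper9): a class with a dual loop is the step across one annulus
-/

set_option autoImplicit false
set_option linter.unusedSectionVars false
noncomputable section
open Set Filter Topology Function Complex
open scoped ContDiff Manifold

namespace Crest.Agent.X212.Lev9

open Crest.Agent.X212.Hel40 Crest.Agent.X212.Int54
open Crest.Agent.X212.Sep15 (CM EE)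
open Crest.Agent.X212.Bb31 (Fm)

variable {R : CM 2} {u u' u'' w w' : R → Circle} {A C D : ℂ → R} {a : ℝ → R} {V W : Set R}

theorem hm_refl (u : R → Circle) : Hm u u := ⟨0, contMDiff_const, fun x => by simp⟩

theorem hm_symm (h : Hm u u') : Hm u' u :=
  let ⟨l, h1, h2⟩ := h
  ⟨-l, h1.neg, fun x => by simp [h2 x]⟩

theorem hm_mul (h : Hm u u') (h' : Hm w w') : Hm (u * w) (u' * w') :=
  let ⟨l, h1, h2⟩ := h
  let ⟨l', h3, h4⟩ := h'
  ⟨l + l', h1.add h3, fun x => by simp [h2 x, h4 x, mul_mul_mul_comm]⟩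

theorem hm_trans (h : Hm u u') (h' : Hm u' u'') : Hm u u'' :=
  let ⟨l, h1, h2⟩ := h
  let ⟨l', h3, h4⟩ := h'
  ⟨l' + l, h3.add h1, fun x => by simp [h2 x, h4 x, mul_assoc]⟩

theorem hm_inv (h : Hm u u') : Hm u⁻¹ u'⁻¹ :=
  let ⟨l, h1, h2⟩ := h
  ⟨-l, h1.neg, fun x => by simp [h2 x, mul_comm]⟩

theorem hm_prod {ι : Type*} {s : Finset ι} {f g : ι → R → Circle} (h : ∀ i ∈ s, Hm (f i) (g i)) :
    Hm (∏ i ∈ s, f i) (∏ i ∈ s, g i) :=
  Finset.cons_induction_on s (fun _ => hm_refl _) (fun i s hi ih h => by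
    rw [Finset.prod_cons, Finset.prod_cons]
    exact hm_mul (h i (Finset.mem_cons_self _ _)) (ih fun j hj => h j (Finset.mem_cons_of_mem hj))) h

theorem dual_hm (h : Dual u a) (h' : Hm u u') : Dual u' a := by
  obtain ⟨h1, h2, l, h3, h4, h5⟩ := h
  obtain ⟨k, k1, k2⟩ := hm_symm h'
  exact ⟨h1, h2, fun t => l t + k (a t), h3.add (k1.continuous.comp h1),
    fun t => by rw [k2, h4, Circle.exp_add], fun t => by simp only [h2, h5]; ring⟩

theorem dual_congr {X : Type*} [TopologicalSpace X] {u u' : X → Circle} {a : ℝ → X} (h : Dual u a)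
    (e : ∀ t, u' (a t) = u (a t)) : Dual u' a :=
  let ⟨h1, h2, l, h3, h4, h5⟩ := h
  ⟨h1, h2, l, h3, fun t => (e t).trans (h4 t), h5⟩

theorem dual_nl {X : Type*} [TopologicalSpace X] {u : X → Circle} {a : ℝ → X} {V : Set X}
    (h : Dual u a) (hV : ∀ t, a t ∈ V) : ¬Lifts u V := by
  rintro ⟨k, k1, k2⟩
  obtain ⟨h1, h2, l, h3, h4, h5⟩ := h
  have e := Circle.isCoveringMap_exp.eq_of_comp_eq (g₁ := fun t => l t - k (a t))
    (g₂ := fun _ => l 0 - k (a 0)) (h3.sub (k1.comp_continuous h1 hV)) continuous_const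
    (funext fun t => by simp [← h4, ← k2 _ (hV _)]) 0 rfl
  have := congrFun e (0 + 1)
  simp only [h5, h2] at this
  linarith [Real.pi_pos]

theorem an_neg (h : An' A) : An' fun z => A (-z) :=
  ⟨fun z => Cyl58.ld_comp (f := Neg.neg) (h.1 _)
    ((ContinuousLinearEquiv.neg ℝ).toDiffeomorph.isLocalDiffeomorph z), fun z w => (h.2 _ _).trans
      ⟨fun ⟨n, e⟩ => ⟨-n, by push_cast; linear_combination -e⟩,
        fun ⟨n, e⟩ => ⟨-n, by push_cast; linear_combination -e⟩⟩⟩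

theorem range_neg (A : ℂ → R) : range (fun z => A (-z)) = range A := neg_surjective.range_comp A

theorem core_neg (A : ℂ → R) : core (fun z => A (-z)) = core A := by
  simpa [core, comp_def] using neg_surjective.range_comp fun t : ℝ => A t

theorem stp_neg (r : ℝ) : stp 1 (-r) = 1 - stp 1 r := by
  have := (Real.smoothTransition.pos_denom ((r + 1) / 2)).ne'
  simp only [stp, Real.smoothTransition, div_one, show (-r + 1) / 2 = 1 - (r + 1) / 2 by ring,
    sub_sub_cancel]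
  rw [eq_sub_iff_add_eq, add_comm (expNegInvGlue (1 - _)), ← add_div, add_comm (expNegInvGlue (1 - _)),
    div_self this]

theorem del_neg (h : An' A) : del (fun z => A (-z)) 1 = (del A 1)⁻¹ := funext fun x => by
  by_cases hx : x ∈ range A
  · obtain ⟨z, rfl⟩ := hx
    have := del_A (an_neg h).2 1 (-z)
    rw [neg_neg] at this
    rw [this, Pi.inv_apply, del_A h.2, neg_im, stp_neg, mul_sub, Circle.exp_sub, mul_one,
      Circle.exp_two_pi, one_div]
  · rw [Pi.inv_apply, del_off 1 hx, del_off 1 (by rwa [range_neg]), inv_one]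

/-- a thinner annulus -/
theorem thin (h : An' A) {δ : ℝ} (hδ : 0 < δ) :
    ∃ A', An' A' ∧ range A' ⊆ A '' {z | |z.im| < δ} ∧ Hm (del A 1) (del A' 1) := by
  have d : 0 < δ / 6 := by positivity
  have h1 : An' fun z : ℂ => A (z.re + (δ / 6 * Prf6.sq z.im : ℝ) * I) := by
    refine ⟨fun z => Cyl58.ld_comp
      (f := fun w : ℂ => ((id w.re : ℝ) + (δ / 6 * Prf6.sq w.im : ℝ) * I : ℂ))
      (h.1 _) (Prf6.pm_diag contDiff_id (contDiff_const.mul Prf6.sq_cd) (by
        simpa [deriv_const_mul_field] using mul_pos d (Prf6.sq_deriv z.im))).1,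
      fun z w => (h.2 _ _).trans (exists_congr fun n => ?_)⟩
    simp [Complex.ext_iff, Prf6.sq_mono.injective.eq_iff, hδ.ne']
  refine ⟨_, h1, ?_, ?_⟩
  · rintro _ ⟨z, rfl⟩
    refine ⟨_, ?_, rfl⟩
    simp only [mem_ofPred_eq, add_im, ofReal_im, mul_im, ofReal_re, I_im, mul_one, I_re, mul_zero,
      add_zero, zero_add, abs_mul, abs_of_pos d]
    nlinarith [Prf6.abs_sq_lt z.im]
  · convert (Hd34.delStmt R A 1 h one_pos).2.2.2.2.1 _ d using 1
    ext1 x
    by_cases hx : x ∈ range fun z : ℂ => A (z.re + (δ / 6 * Prf6.sq z.im : ℝ) * I)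
    · obtain ⟨z, rfl⟩ := hx
      rw [del_A h1.2, del_A h.2]
      have := Bs44.st_sq z.im
      simp only [Bs44.st, stp, div_one] at this
      simp only [add_im, ofReal_im, mul_im, ofReal_re, I_im, mul_one, I_re, mul_zero, add_zero,
        zero_add, stp, mul_div_cancel_left₀ _ d.ne', div_one, this]
    · rw [del_off 1 hx, Hd34.del_off h d]
      rintro ⟨z, hz, rfl⟩
      refine hx ⟨z.re + (z.im / (δ / 6) : ℝ) * I, congrArg A ?_⟩
      simp only [add_re, ofReal_re, mul_re, I_re, mul_zero, ofReal_im, I_im, mul_one, sub_self,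
        add_zero, add_im, mul_im, zero_add]
      rw [Prf6.sq_id (by rwa [abs_div, abs_of_pos d, div_le_one d]), mul_div_cancel₀ _ d.ne', re_add_im]

/-- band sum with either side -/
theorem merge (hD : An' D) (hC : An' C) (hV : IsOpen V) (cV : IsPreconnected V)
    (dj : Disjoint (range D) (range C)) (DV : range D ⊆ V) (nl : ¬Lifts (del D 1) V)
    (VC : Disjoint V (core C)) (hs : (∀ z : ℂ, 0 < z.im → C z ∈ V) ∨ ∀ z : ℂ, z.im < 0 → C z ∈ V) :
    ∃ A, An' A ∧ range A ⊆ V ∧ Hm (del D 1 * del C 1) (del A 1) := by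
  have c := Hd34.conn hD one_pos hV cV ((image_subset_range _ _).trans DV) nl
  have o := hV.sdiff (Hd34.core_closed hD)
  have d : Disjoint (V \ core D) (core D ∪ core C) :=
    disjoint_union_right.2 ⟨disjoint_sdiff_left, VC.mono_left sdiff_subset⟩
  have m : ∀ z : ℂ, z.im ≠ 0 → D z ∈ V \ core D := fun z hz =>
    ⟨DV ⟨z, rfl⟩, fun e => hz ((Hd34.mem_core hD).1 e)⟩
  have n : ∀ z, C z ∉ core D := fun z ⟨t, e⟩ => disjoint_left.1 dj ⟨_, e⟩ ⟨z, rfl⟩
  rcases hs with hs | hs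
  · obtain ⟨A, a1, a2, a3⟩ := Bs44.bs R _ D C hD hC o c dj d fun z hz => ⟨m z hz.ne', hs z hz, n z⟩
    exact ⟨A, a1, a2.trans sdiff_subset, a3⟩
  · obtain ⟨A, a1, a2, a3⟩ := Bs44.bs R _ _ _ (an_neg hD) (an_neg hC) o c (by rwa [range_neg, range_neg])
      (by rwa [core_neg, core_neg]) fun z hz => ⟨m _ (by simpa using hz.ne'), hs _ (by simpa), n _⟩
    refine ⟨_, an_neg a1, range_neg A ▸ a2.trans sdiff_subset, ?_⟩
    have := hm_inv a3
    rwa [del_neg hD, del_neg hC, mul_inv, inv_inv, inv_inv, ← del_neg a1] at this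

/-- merging a family -/
theorem merge_all (hW : IsOpen W) (cW : IsPreconnected W) (aW : ∀ t, a t ∈ W) {ι : Type*} (n : ℕ) :
    ∀ (s : Finset ι) (D : ℂ → R) (C : ι → ℂ → R), s.card = n → An' D → range D ⊆ W →
      Dual (del D 1) a → (∀ i ∈ s, An' (C i) ∧ range (C i) ⊆ W ∧ Disjoint (range D) (range (C i)) ∧
        ∀ t, a t ∉ range (C i)) → (∀ i ∈ s, ∀ j ∈ s, i ≠ j → Disjoint (range (C i)) (range (C j))) →
      ∃ A, An' A ∧ range A ⊆ W ∧ Hm (del D 1 * ∏ i ∈ s, del (C i) 1) (del A 1) := by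
  classical
  induction n with
  | zero =>
    intro s D C hs hD DW _ _ _
    exact ⟨D, hD, DW, by simpa [Finset.card_eq_zero.1 hs] using hm_refl _⟩
  | succ n ih =>
    intro s D C hs hD DW ha hC dj
    have := ChartedSpace.locallyConnectedSpace (EE 2) R
    have cs : ∀ i, core (C i) ⊆ range (C i) := fun i => by rintro _ ⟨t, rfl⟩; exact ⟨_, rfl⟩
    set F := W \ ⋃ i ∈ s, core (C i)
    have oF : IsOpen F := hW.sdiff (isClosed_biUnion_finset fun i hi => Hd34.core_closed (hC i hi).1)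
    set V := connectedComponentIn F (a 0)
    have oV : IsOpen V := oF.connectedComponentIn
    have VF : V ⊆ F := connectedComponentIn_subset _ _
    have sub : ∀ S x, IsPreconnected S → S ⊆ F → x ∈ S → x ∈ V → S ⊆ V := fun S x h1 h2 h3 h4 =>
      (h1.subset_connectedComponentIn h3 h2).trans (connectedComponentIn_eq h4).ge
    have aF : range a ⊆ F := by
      rintro _ ⟨t, rfl⟩
      exact ⟨aW t, fun e => let ⟨i, hi, e⟩ := mem_iUnion₂.1 e; (hC i hi).2.2.2 t (cs i e)⟩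
    have aV : ∀ t, a t ∈ V := fun t => sub _ _ (isPreconnected_range ha.1) aF ⟨0, rfl⟩
      (mem_connectedComponentIn (aF ⟨0, rfl⟩)) ⟨t, rfl⟩
    obtain ⟨t, ht⟩ : ∃ t, a t ∈ range D := by
      by_contra! h
      exact dual_nl ha h ⟨0, continuousOn_const, fun x hx => by simpa using del_off 1 hx⟩
    have DV : range D ⊆ V := sub _ _ (isPreconnected_range hD.1.contMDiff.continuous)
      (fun x hx => ⟨DW hx, fun e => let ⟨i, hi, e⟩ := mem_iUnion₂.1 e
        disjoint_left.1 (hC i hi).2.2.1 hx (cs i e)⟩) ht (aV t)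
    obtain ⟨j, hj, z, hz⟩ : ∃ j ∈ s, ∃ z, C j z ∈ V := by
      by_contra! h
      obtain ⟨j, hj⟩ := Finset.card_pos.1 (by omega : 0 < s.card)
      refine h j hj 0 (cW.subset_of_closure_inter_subset oV ⟨_, aW 0, aV 0⟩ (fun x hx => ?_)
        ((hC j hj).2.1 ⟨0, rfl⟩))
      by_cases k : x ∈ F
      · obtain ⟨y, y1, y2⟩ := mem_closure_iff.1 hx.1 _ oF.connectedComponentIn
          (mem_connectedComponentIn k)
        exact sub _ y isPreconnected_connectedComponentIn (connectedComponentIn_subset _ _) y1 y2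
          (mem_connectedComponentIn k)
      · obtain ⟨i, hi, e⟩ := mem_iUnion₂.1 (not_not.1 fun e => k ⟨hx.2, e⟩)
        obtain ⟨_, ⟨y, rfl⟩, y2⟩ := mem_closure_iff.1 hx.1 _ (hC i hi).1.1.isOpen_range (cs i e)
        exact absurd y2 (h i hi y)
    have VC : ∀ i ∈ s, Disjoint V (core (C i)) := fun i hi =>
      disjoint_left.2 fun x hx e => (VF hx).2 (mem_iUnion₂.2 ⟨i, hi, e⟩)
    have side : ∀ S : Set ℂ, Convex ℝ S → (∀ y ∈ S, y.im ≠ 0) → z ∈ S → ∀ y ∈ S, C j y ∈ V :=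
      fun S h1 h2 h3 y hy => sub _ _ (h1.isPreconnected.image _
        (hC j hj).1.1.contMDiff.continuous.continuousOn) (by
          rintro _ ⟨y, hy, rfl⟩
          refine ⟨(hC j hj).2.1 ⟨y, rfl⟩, fun e => ?_⟩
          obtain ⟨i, hi, e⟩ := mem_iUnion₂.1 e
          by_cases k : i = j
          · exact h2 y hy ((Hd34.mem_core (hC j hj).1).1 (k ▸ e))
          · exact disjoint_left.1 (dj i hi j hj k) (cs i e) ⟨y, rfl⟩) ⟨z, h3, rfl⟩ hz ⟨y, hy, rfl⟩
    have z0 : z.im ≠ 0 := fun e => disjoint_left.1 (VC j hj) hz ((Hd34.mem_core (hC j hj).1).2 e)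
    obtain ⟨A, a1, a2, a3⟩ := merge hD (hC j hj).1 oV isPreconnected_connectedComponentIn
      (hC j hj).2.2.1 DV (dual_nl ha aV) (VC j hj) (z0.lt_or_gt.symm.imp
        (side _ (convex_halfSpace_im_gt 0) fun _ h => ne_of_gt h)
        (side _ (convex_halfSpace_im_lt 0) fun _ h => ne_of_lt h))
    obtain ⟨A', b1, b2, b3⟩ := thin a1 one_pos
    have ex : ∀ i ∈ s, ∃ C', An' C' ∧ range C' ⊆ range (C i) ∧ Disjoint (range A') (range C') ∧
        Hm (del (C i) 1) (del C' 1) := fun i hi => by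
      obtain ⟨δ, hδ, h⟩ := Bs44.tube (hC i hi).1 ((Hd34.band_cpt a1 1).isClosed.isOpen_compl.mem_nhdsSet.2
        fun x hx e => disjoint_left.1 (VC i hi) (a2 (image_subset_range _ _ e)) hx)
      obtain ⟨C', c1, c2, c3⟩ := thin (hC i hi).1 hδ
      refine ⟨C', c1, c2.trans (image_subset_range _ _), disjoint_left.2 fun x x1 x2 => ?_, c3⟩
      obtain ⟨y, hy, rfl⟩ := c2 x2
      exact h y hy (image_mono (show {z : ℂ | |z.im| < 1} ⊆ {z | |z.im| ≤ 1} from
        fun z h => (le_of_lt h : |z.im| ≤ 1)) (b2 x1))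
    have : Nonempty (ℂ → R) := ⟨D⟩
    choose! C' c1 c2 c3 c4 using ex
    have b4 := hm_trans a3 b3
    have es := fun i (hi : i ∈ s.erase j) => Finset.mem_of_mem_erase hi
    obtain ⟨B, d1, d2, d3⟩ := ih (s.erase j) A' C' (by rw [Finset.card_erase_of_mem hj, hs]; rfl) b1
      ((b2.trans (image_subset_range _ _)).trans (a2.trans (VF.trans sdiff_subset)))
      (dual_hm (dual_congr ha fun t => by
        rw [Pi.mul_apply, del_off 1 ((hC j hj).2.2.2 t), mul_one]) b4)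
      (fun i hi => ⟨c1 i (es i hi), (c2 i (es i hi)).trans (hC i (es i hi)).2.1, c3 i (es i hi),
        fun t e => (hC i (es i hi)).2.2.2 t (c2 i (es i hi) e)⟩)
      fun i hi k hk h => (dj i (es i hi) k (es k hk) h).mono (c2 i (es i hi)) (c2 k (es k hk))
    refine ⟨B, d1, d2, hm_trans ?_ d3⟩
    rw [← Finset.mul_prod_erase s _ hj, ← mul_assoc]
    exact hm_mul b4 (hm_prod fun i hi => c4 i (es i hi))

/-- **SINGLE** -/
theorem single' {oR : Fm 2 R} (ho : Ori (𝓡 2) oR) {H : Set R} (hW : IsOpen W) (cW : IsPreconnected W)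
    (hH : IsClosed H) (hD : An' D) (DW : range D ⊆ W) {ε : ℝ} (hε : 0 < ε)
    (DH : D '' {z | |z.im| < ε} ⊆ H) (ha : Dual (del D ε) a) (aW : ∀ t, a t ∈ W ∩ H) (hw : SC w)
    (w1 : ∀ x, x ∉ W ∨ x ∈ H → w x = 1) :
    ∃ A, An' A ∧ range A ⊆ W ∧ Hm (del D ε * w) (del A 1) ∧ Dual (del A 1) a ∧
      IsPreconnected (W \ core A) := by
  obtain ⟨m, C, c1, c2, c3⟩ := lev R oR (W \ H) w ho (hW.sdiff hH) hw fun x hx =>
    w1 x (not_and_or.1 hx |>.imp_right not_not.1)
  obtain ⟨D', d1, d2, d3⟩ := thin hD hε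
  have d4 := hm_trans ((Hd34.delStmt R D ε hD hε).2.2.2.2.1 1 one_pos) d3
  obtain ⟨A, a1, a2, a3⟩ := merge_all hW cW (fun t => (aW t).1) _ Finset.univ D' C rfl d1
    ((d2.trans (image_subset_range _ _)).trans DW) (dual_hm ha d4)
    (fun i _ => ⟨(c1 i).1, (c1 i).2.trans sdiff_subset,
      disjoint_left.2 fun x x1 x2 => ((c1 i).2 x2).2 (DH (d2 x1)),
      fun t e => ((c1 i).2 e).2 (aW t).2⟩) fun i _ j _ => c2 i j
  have a4 := hm_trans (hm_mul d4 c3) a3
  have a5 := dual_hm (dual_congr (u' := del D ε * w) ha fun t => by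
    rw [Pi.mul_apply, w1 _ (Or.inr (aW t).2), mul_one]) a4
  exact ⟨A, a1, a2, a4, a5, Hd34.conn a1 one_pos hW cW ((image_subset_range _ _).trans a2)
    (dual_nl a5 fun t => (aW t).1)⟩

end Crest.Agent.X212.Lev9
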