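import Crest.Agent.X212.Arc9.Lev

/-!
# Row 212, HEL / LEV (helper9): a band of regular levels is a finite union of annuli
-/

set_option autoImplicit false
set_option linter.unusedSectionVars false
noncomputable section
open Set Filter Topology Function Complex
open scoped ContDiff Manifold

namespace Crest.Agent.X212.Lev9

open Crest.Agent.X212.Prf6 Crest.Agent.X212.Tub3 Crest.Agent.X212.Arc9

variable {M : Type} [TopologicalSpace M] [ChartedSpace ℂ M] [IsManifold IC ∞ M] [T2Space M]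
  [CompactSpace M] {η : M → ℝ}

/-- a local field of unit rate -/
theorem exists_unit (hη : ContMDiff IC IR ∞ η) {x : M} (hx : dv η x ≠ 0) :
    ∃ N ∈ 𝓝 x, ∃ V : (y : M) → TangentSpace IC y,
      ContMDiffOn IC (IC.prod IC) ∞ (fun y => Bundle.TotalSpace.mk' ℂ y (V y)) N ∧
      ∀ y ∈ N, dv η y (V y) = 1 := by
  set ψ := chartAt ℂ x
  set f := η ∘ ψ.symm
  have h2 := fun y hy => dv_chart isOpen_univ hη.contMDiffOn (x := x) (y := y) hy (mem_univ y)
  obtain ⟨w, hw⟩ := DFunLike.ne_iff.1 hx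
  rw [h2 x (mem_chart_source ℂ x)] at hw
  set u := dc ψ x w
  have h1 : ∀ y ∈ ψ.source, ContDiffAt ℝ ∞ (fun z => fderiv ℝ f z u) (ψ y) := fun y hy =>
    (((cd_chart hη.contMDiffOn x).contDiffAt (s := _ ∩ _ ⁻¹' univ) (by
      simpa using ψ.open_target.mem_nhds (ψ.map_source hy))).fderiv_right (by simp)).clm_apply
      contDiffAt_const
  have h3 : ∀ᶠ y in 𝓝 x, fderiv ℝ f (ψ y) u ≠ 0 :=
    ((h1 x (mem_chart_source ℂ x)).continuousAt.comp
      (ψ.continuousAt (mem_chart_source ℂ x))).eventually_ne hw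
  refine ⟨_, inter_mem (chart_source_mem_nhds ℂ x) h3,
    VectorField.mpullback IC IC ψ fun z => (fderiv ℝ f z u)⁻¹ • u, fun y hy => ?_, fun y hy => ?_⟩
  · exact (ContMDiffAt.mpullback_vectorField_preimage (n := ∞)
      (contMDiffAt_vectorSpace_iff_contDiffAt.2 (((h1 y hy.1).inv hy.2).smul contDiffAt_const))
      (ld_chart x hy.1).contMDiffAt
      ⟨(ld_chart x hy.1).mfderivToContinuousLinearEquiv (by simp), rfl⟩
      (by simp)).contMDiffWithinAt
  · have hi : (mfderiv IC IC ψ y).IsInvertible :=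
      ⟨(ld_chart x hy.1).mfderivToContinuousLinearEquiv (by simp), rfl⟩
    have h4 : dc ψ y (VectorField.mpullback IC IC ψ (fun z => (fderiv ℝ f z u)⁻¹ • u) y) =
      (fderiv ℝ f (ψ y) u)⁻¹ • u := hi.self_apply_inverse _
    exact (h2 y hy.1 _).trans ((congrArg _ h4).trans ((map_smul _ _ _).trans (inv_mul_cancel₀ hy.2)))

/-- a band of regular values with a field of unit rate -/
theorem exists_rate (hη : ContMDiff IC IR ∞ η) {a b : ℝ} (hab : a < b) :
    ∃ c δ, 0 < δ ∧ a < c - 2 * δ ∧ c + 2 * δ < b ∧ (∀ y, η y = c → dv η y ≠ 0) ∧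
      ∃ v : (y : M) → TangentSpace IC y, Flo26.SmV IC v ∧
        ∀ y s, |η y - c| + |s| ≤ 2 * δ → η (Flo26.fl v s y) = η y + s := by
  obtain ⟨c, h1, h2⟩ := exists_reg isOpen_univ hη.contMDiffOn hab
  have h3 : IsClosed {y | dv η y = 0} := isOpen_compl_iff.1 (isOpen_iff_mem_nhds.2 fun x hx => by
    obtain ⟨N, n1, V, -, n2⟩ := exists_unit hη hx
    filter_upwards [n1] with y hy (e : dv η y = 0)
    have := n2 y hy
    rw [e] at this
    exact zero_ne_one this)
  obtain ⟨r, r0, h4⟩ := Metric.isOpen_iff.1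
    ((h3.isCompact.image hη.continuous).isClosed.isOpen_compl.inter isOpen_Ioo) c
    ⟨fun ⟨y, a1, a2⟩ => h2 y trivial a2 a1, h1⟩
  have h5 : ∀ t, |t - c| ≤ 2 * (r / 3) → t ∈ (η '' {y | dv η y = 0})ᶜ ∩ Ioo a b := fun t ht =>
    h4 (by rw [Metric.mem_ball, Real.dist_eq]; linarith)
  obtain ⟨v, hv⟩ := exists_contMDiffSection_forall_mem_convex_of_local (n := (⊤ : ℕ∞)) IC
    (F_fiber := ℂ) (TangentSpace IC : M → Type)
    (fun y => dv η y ⁻¹' (Icc (-1) 1 ∩ {t | |η y - c| ≤ 2 * (r / 3) → t = 1}))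
    (fun y => ((convex_Icc _ _).inter (by
      by_cases h : |η y - c| ≤ 2 * (r / 3) <;> simp [h, convex_univ])).linear_preimage
        (dv η y).toLinearMap)
    (fun x => by
      by_cases hx : dv η x = 0
      · have a1 : 2 * (r / 3) < |η x - c| := not_le.1 fun h => (h5 _ h).1 ⟨x, hx, rfl⟩
        exact ⟨_, ((hη.continuous.sub continuous_const).abs.tendsto x).eventually (lt_mem_nhds a1),
          fun _ => 0, (Flo26.SmV.zero (I := IC)).contMDiffOn, fun y hy => by
            refine ⟨?_, fun e => absurd e (not_le.2 hy)⟩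
            show dv η y (0 : ℂ) ∈ Icc (-1 : ℝ) 1
            simp⟩
      · obtain ⟨N, n1, V, n2, n3⟩ := exists_unit hη hx
        exact ⟨N, n1, V, n2, fun y hy =>
          ⟨(n3 y hy).symm ▸ (by simp : (1 : ℝ) ∈ Icc (-1 : ℝ) 1), fun _ => n3 y hy⟩⟩)
  have sv : Flo26.SmV IC v := v.contMDiff
  have cp : Flo26.Cpl (I := IC) v := Flo26.complete_of_compactSpace sv
  have md : ∀ y, MDifferentiableAt IC IR η y := fun y => hη.mdifferentiableAt (by simp)
  refine ⟨c, r / 3, by linarith, (h5 _ (by rw [abs_le]; constructor <;> linarith)).2.1,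
    (h5 _ (by rw [abs_le]; constructor <;> linarith)).2.2, fun y => h2 y trivial, v, sv,
    fun y s hs => ?_⟩
  have d := fun t => Flo26.hasDerivAt_comp_fl sv (cp (t, y)) (md _)
  have := Flo26.comp_fl_eq sv (cp (s, y)) (f := η) (c := 1) fun t ht => ⟨md _, (hv _).2 ?_⟩
  · simpa using this
  · have a1 := convex_univ.norm_image_sub_le_of_norm_hasDerivWithin_le (C := 1)
      (fun t _ => (d t).hasDerivWithinAt) (fun t _ => abs_le.2 (hv _).1) (mem_univ 0) (mem_univ t)
    rw [Flo26.fl_zero sv, Real.norm_eq_abs, sub_zero, one_mul, Real.norm_eq_abs] at a1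
    have a2 : |t| ≤ |s| := by simpa using abs_sub_left_of_mem_uIcc ht
    linarith [abs_sub_le (η (Flo26.fl v t y)) (η y) c]

/-- **the band** -/
theorem exists_band (o : Or M) (hη : ContMDiff IC IR ∞ η) {a b : ℝ} (hab : a < b) :
    ∃ c δ, 0 < δ ∧ a < c - 2 * δ ∧ c + 2 * δ < b ∧ ∃ ρ : ℝ → ℝ, Monotone ρ ∧ (∀ r, |ρ r| < 2) ∧
      (∀ r, |r| ≤ 1 → ρ r = r) ∧ ∃ (ι : Type) (_ : Finite ι) (A : ι → ℂ → M),
      (∀ i, IsLocalDiffeomorph IC IC ∞ (A i) ∧ (∀ z w, A i z = A i w ↔ ∃ n : ℤ, w = z + n) ∧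
        ∀ z, η (A i z) = c + δ * ρ z.im) ∧
      (∀ i j, i ≠ j → Disjoint (range (A i)) (range (A j))) ∧
      ∀ y, |η y - c| ≤ δ → ∃ i z, A i z = y := by
  obtain ⟨c, δ, hδ, h1, h2, h3, v, hv, h4⟩ := exists_rate hη hab
  obtain ⟨ρ, r1, r2, r3⟩ := exists_squeeze (ε := 2) two_pos
  have r4 : StrictMono ρ := strictMono_of_deriv_pos fun x => (r1 x trivial).2
  have r5 : ContDiff ℝ ∞ ρ := contDiff_iff_contDiffAt.2 fun x => (r1 x trivial).1
  have r6 : ∀ r, |r| ≤ 1 → ρ r = r := fun r hr => r3 r (by linarith)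
  have cp : Flo26.Cpl (I := IC) v := Flo26.complete_of_compactSpace hv
  choose γ g1 g2 g3 using fun p : {y // η y = c} => exists_level o isOpen_univ hη.continuous
    hη.contMDiffOn (fun y e => ⟨trivial, h3 y e⟩) p.2
  let A : {y // η y = c} → ℂ → M := fun p z => Flo26.fl v (δ * ρ z.im) (γ p z.re)
  have a1 : ∀ p z, η (A p z) = c + δ * ρ z.im := fun p z => by
    rw [h4, g3]
    rw [g3, sub_self, abs_zero, zero_add, abs_mul, abs_of_pos hδ]
    nlinarith [r2 z.im]
  have a2 : ∀ p q z w, A p z = A q w → z.im = w.im ∧ γ p z.re = γ q w.re := fun p q z w e => by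
    have b : z.im = w.im := r4.injective (mul_left_cancel₀ hδ.ne'
      (add_left_cancel ((a1 p z).symm.trans (e ▸ a1 q w))))
    simp only [A, b] at e
    exact ⟨b, (Flo26.flD hv cp _).injective e⟩
  have a0 : ∀ p (t : ℝ), A p t = γ p t := fun p t => by simp [A, r6, Flo26.fl_zero hv]
  have a3 : ∀ p, IsLocalDiffeomorph IC IC ∞ (A p) := fun p z => by
    have s1 : ContMDiff IC IC ∞ (A p) :=
      (cp.contMDiff hv).comp (f := fun z : ℂ => (δ * ρ z.im, γ p z.re))
        ((contDiff_const.mul (r5.comp imCLM.contDiff)).contMDiff.prodMk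
          ((g1 p).sm.comp reCLM.contDiff.contMDiff))
    have d := s1.mdifferentiableAt (x := z) (by simp)
    refine Glue52.ld_of_injective_mfderiv rfl isOpen_univ (mem_univ z) s1.contMDiffOn
      ((injective_iff_map_eq_zero _).2 fun (u : ℂ) hu => ?_)
    have hu' : df (A p) z u = 0 := hu
    have b1 : HasFDerivAt (η ∘ A p) ((δ * deriv ρ z.im) • imCLM) z := by
      rw [show η ∘ A p = fun z => c + δ * ρ z.im from funext (a1 p)]
      exact ((((r5.differentiable (by simp) z.im).hasDerivAt.const_mul δ).const_add c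
        ).comp_hasFDerivAt z imCLM.hasFDerivAt :)
    have b2 : dv η (A p z) (df (A p) z u) = (δ * deriv ρ z.im) * u.im :=
      congrArg (fun L : ℂ →L[ℝ] ℝ => L u) (hasMFDerivAt_unique
        ((hη.mdifferentiableAt (by simp)).hasMFDerivAt.comp z d.hasMFDerivAt) b1.hasMFDerivAt)
    rw [hu', map_zero, eq_comm, mul_eq_zero] at b2
    have b3 := b2.resolve_left (mul_pos hδ (r1 z.im trivial).2).ne'
    rw [lin_C', b3, ofReal_zero, zero_mul, add_zero, mul_eq_zero, ofReal_eq_zero] at hu'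
    refine Complex.ext (hu'.resolve_right fun e => (g1 p).imm z.re ?_) b3
    have b4 := hasMFDerivAt_comp (f := A p) (c := fun t : ℝ => t + z.im * I) (t := z.re)
      (s1.mdifferentiableAt (by simp)) (ofRealCLM.hasDerivAt.add_const _)
    have b5 := ((Flo26.flD hv cp (δ * ρ z.im)).symm.contMDiff.mdifferentiableAt (by simp)
      ).hasMFDerivAt.comp z.re b4
    rw [(b5.congr_of_eventuallyEq (f₁ := γ p) (Eventually.of_forall fun t => by
      simp only [comp_apply, A, add_im, ofReal_im, mul_im, ofReal_re, I_im, mul_one, I_re, mul_zero,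
        add_zero, zero_add, add_re, mul_re, sub_self]
      exact ((Flo26.flD hv cp _).symm_apply_apply _).symm)).mfderiv]
    simp only [re_add_im, ofRealCLM_apply, ofReal_one, e]
    exact (congrArg _ (smul_zero (A := ℂ) (1 : ℝ))).trans
      (map_zero (mfderiv IC IC (Flo26.flD hv cp (δ * ρ z.im)).symm (A p (z.re + z.im * I))))
  have a4 : ∀ p q x, x ∈ range (γ p) → x ∈ range (γ q) → range (γ q) ⊆ range (γ p) :=
    fun p q x b1 b2 => by
      have b3 : range (γ q) ∩ range (A p) ⊆ range (γ p) := by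
        rintro _ ⟨⟨t, rfl⟩, z, e⟩
        exact ⟨_, (a2 p q z t (e.trans (a0 q t).symm)).2⟩
      have b4 : range (γ p) ⊆ range (A p) := by rintro _ ⟨t, rfl⟩; exact ⟨t, a0 p t⟩
      rcases isPreconnected_iff_subset_of_disjoint.1 (isPreconnected_range (g1 q).sm.continuous) _ _
        (a3 p).isOpen_range (cv_compact (g1 p)).isClosed.isOpen_compl
        (fun y _ => (em _).imp (@b4 y) id) (eq_empty_of_forall_notMem fun y hy =>
          hy.2.2 (b3 ⟨hy.1, hy.2.1⟩)) with h | h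
      · exact fun y hy => b3 ⟨hy, h hy⟩
      · exact absurd b1 (h b2)
  obtain ⟨s, hs⟩ := (isClosed_eq hη.continuous continuous_const).isCompact.elim_finite_subcover
    (fun p => range (A p)) (fun p => (a3 p).isOpen_range)
    fun y hy => mem_iUnion.2 ⟨⟨y, hy⟩, (0 : ℝ), (a0 _ 0).trans (g2 _)⟩
  have fin : (range fun p => range (γ p)).Finite := (s.finite_toSet.image fun p => range (γ p)).subset (by
    rintro _ ⟨q, rfl⟩
    obtain ⟨p, hp, z, e⟩ := mem_iUnion₂.1 (hs q.2)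
    have b : γ p z.re = γ q 0 := by
      simpa using (a2 p q z (0 : ℝ) (e.trans ((a0 q 0).trans (g2 q)).symm)).2
    exact ⟨p, hp, (a4 q p _ ⟨_, rfl⟩ ⟨_, b⟩).antisymm (a4 p q _ ⟨_, b⟩ ⟨_, rfl⟩)⟩)
  refine ⟨c, δ, hδ, h1, h2, ρ, r4.monotone, r2, r6, _, fin.to_subtype, fun C => A C.2.choose,
    fun C => ⟨a3 _, fun z w => ⟨fun e => ?_, ?_⟩, a1 _⟩, fun C D h => disjoint_left.2 ?_, fun y hy => ?_⟩
  · obtain ⟨b1, b2⟩ := a2 _ _ z w e
    obtain ⟨n, hn⟩ := ((g1 _).inj _ _).1 b2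
    exact ⟨n, Complex.ext (by simpa using hn) (by simpa using b1.symm)⟩
  · rintro ⟨n, rfl⟩
    simp [A, cv_per (g1 _)]
  · rintro _ ⟨z, rfl⟩ ⟨w, e⟩
    have b := (a2 _ _ _ _ e).2
    exact h (Subtype.ext (C.2.choose_spec.symm.trans (((a4 _ _ _ ⟨_, b⟩ ⟨_, rfl⟩).antisymm
      (a4 _ _ _ ⟨_, rfl⟩ ⟨_, b⟩)).trans D.2.choose_spec)))
  · have b1 : η (Flo26.fl v (-(η y - c)) y) = c := by
      rw [h4 _ _ (by rw [abs_neg]; linarith)]; ring
    let C : range fun p => range (γ p) := ⟨_, ⟨_, b1⟩, rfl⟩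
    obtain ⟨t, ht⟩ : Flo26.fl v (-(η y - c)) y ∈ range (γ C.2.choose) :=
      C.2.choose_spec.ge ⟨0, g2 ⟨_, b1⟩⟩
    refine ⟨C, t + ((η y - c) / δ : ℝ) * I, ?_⟩
    have b2 : ρ ((η y - c) / δ) = (η y - c) / δ :=
      r6 _ (by rwa [abs_div, abs_of_pos hδ, div_le_one hδ])
    simp only [A, add_im, ofReal_im, mul_im, ofReal_re, I_im, mul_one, I_re, mul_zero, add_zero,
      zero_add, add_re, mul_re, sub_self, b2, ht]
    rw [mul_div_cancel₀ _ hδ.ne', ← cp.add hv, add_neg_cancel, Flo26.fl_zero hv]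

end Crest.Agent.X212.Lev9
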