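import Crest.Agent.X212.Lev9.Single
import Crest.Agent.X212.Sm10.Hd2
import Crest.Agent.X212.Hel40.Twr

/-!
# Row 212, HEL / SINGLE (helper9): the statement of `Hel40/Twr`
-/

set_option autoImplicit false
noncomputable section
open Set Filter Topology Function

namespace Crest.Agent.X212.Lev9
open Crest.Agent.X212.Hel40

theorem single : SingleStmt := by
  intro R oR W D ε a w ho hc hW cW hD DW hε ha aW hw w1
  obtain ⟨A, a1, a2, a3, a4, -⟩ := single' (H := D '' {z | |z.im| ≤ ε} ∪ range a) ho hW cW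
    ((Hd34.band_cpt hD ε).isClosed.union (Periodic.compact_of_continuous ha.2.1 one_ne_zero ha.1).isClosed)
    hD DW hε ((image_mono fun (z : ℂ) (h : |z.im| < ε) => (h.le : |z.im| ≤ ε)).trans subset_union_left) ha
    (fun t => ⟨aW ⟨t, rfl⟩, Or.inr ⟨t, rfl⟩⟩) hw fun x hx => w1.self_of_nhdsSet x (by rwa [union_assoc])
  have ns : ∀ B, An' B → del B 1 = del A 1 → H7.NS B := fun B h e => by
    have := Hd34.conn h one_pos isOpen_univ hc (subset_univ _) (e ▸ dual_nl a4 fun _ => trivial)
    rwa [← compl_eq_univ_sdiff] at this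
  rcases Sm10.an_or ho a1 with h | h
  · exact ⟨A, h, a2, ns A a1 rfl, a3⟩
  · exact ⟨_, h, (range_comp_subset_range _ _).trans a2, ns _ (Sm10.an'_rf a1) (Sm10.del_rf a1 1),
      (Sm10.del_rf a1 1).symm ▸ a3⟩

end Crest.Agent.X212.Lev9
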